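import Vale.Agent.P015.R2.H731.Bridge
import Vale.Agent.P015.R2.H116.Coup3

/-!
# P015: the coupling theorem at frequencies with rational prime denominators
-/

namespace Vale.Agent.P015.H690

open Finset Vale.Agent.P006.CLS Vale.Agent.P015.H222 Vale.Agent.P015 Vale.Agent.P015.Cx
  Vale.Agent.P015.R2.H116 Vale.Agent.P015.R2.H731

theorem th_coord' {c : ℤ} {r : ℤ} {p : ℕ} (s : ℂ) (hs : s = (c : ℂ) * (1 - Complex.I * r) / p) :
    s.re = (c : ℝ) / p ∧ -s.im = (c : ℝ) * r / p := by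
  have h1 : s = (((c : ℝ) / p : ℝ) : ℂ) - (((c : ℝ) * r / p : ℝ) : ℂ) * Complex.I := by
    rw [hs]; push_cast; ring
  rw [h1]
  constructor
  · simp
  · simp

/-- **Coupling theorem**, rational prime denominators: two levels of primes cannot have all the
differences of their frequencies in the large spectrum of a curve-like set. -/
theorem coupling_rat : ∃ a : ℕ, ∀ (Λ : ℝ) (W : Finset (ℤ × ℤ)) (K Q0 Q : ℕ), Cv W K Λ →
    ∀ (r : ℕ → ℤ) (P0 P : Finset ℕ), Rts r P0 → Rts r P →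
    (∀ p ∈ P0, Q0 ≤ 2 * p ∧ p ≤ Q0) → (∀ p ∈ P, Q ≤ 2 * p ∧ p ≤ Q) →
    (Q0 : ℝ) ≤ Λ * P0.card → (Q : ℝ) ≤ Λ * P.card →
    ∀ c0 c1 : ℕ → ℕ, (∀ p ∈ P0, c0 p ∈ Icc 1 (p - 1)) → (∀ p ∈ P, c1 p ∈ Icc 1 (p - 1)) →
    Λ ^ a ≤ Q0 → Q0 ^ 3 ≤ Q → Q ^ 4 ≤ K →
    (W.card : ℝ) * P0.card * P.card ≤ Λ * ∑ ρ ∈ P, ∑ p ∈ P0,
      ‖hg W (fx ⟨ρ, c1 ρ⟩ - fx ⟨p, c0 p⟩) (fy r ⟨ρ, c1 ρ⟩ - fy r ⟨p, c0 p⟩)‖ → False := by
  obtain ⟨a, hcoup⟩ := coupling
  refine ⟨a + 1, fun Λ W K Q0 Q hcv r P0 P hR0 hR hP0 hP hP0c hPc c0 c1 hc0m hc1m hΛQ0 hQQ hK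
    hbig => ?_⟩
  have hΛ10 := hcv.ten
  have hΛ1 : (1 : ℝ) ≤ Λ := by linarith
  have hΛ0 : (0 : ℝ) < Λ := by linarith
  have hQ0pos : (10 : ℝ) ≤ Q0 := by
    refine le_trans ?_ hΛQ0
    calc (10 : ℝ) ≤ Λ := hΛ10
      _ = Λ ^ 1 := (pow_one _).symm
      _ ≤ Λ ^ (a + 1) := pow_le_pow_right₀ hΛ1 (by omega)
  have hQ0n : 10 ≤ Q0 := by exact_mod_cast hQ0pos
  have hQ2 : 2 * Q0 < Q := by
    have h1 : Q0 * 100 ≤ Q0 ^ 3 := by
      have : 100 ≤ Q0 ^ 2 := by nlinarith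
      calc Q0 * 100 ≤ Q0 * Q0 ^ 2 := Nat.mul_le_mul_left _ this
        _ = Q0 ^ 3 := by ring
    omega
  set cc : ℕ → ℕ := fun p => if p ∈ P0 then c0 p else c1 p with hcc
  have hdisj : ∀ p ∈ P, p ∉ P0 := by
    intro p hp hp0
    have h1 := (hP p hp).1
    have h2 := (hP0 p hp0).2
    omega
  have hcc0 : ∀ p ∈ P0, cc p = c0 p := fun p hp => if_pos hp
  have hcc1 : ∀ p ∈ P, cc p = c1 p := fun p hp => if_neg (hdisj p hp)
  have hbr : ∀ p ∈ P0 ∪ P, ∃ πα : GaussianInt × GaussianInt, Prime πα.1 ∧ πα.1.norm = p ∧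
      ¬ πα.1 ∣ πα.2 ∧ GaussianInt.toComplex πα.2 / GaussianInt.toComplex πα.1 =
        ((cc p : ℤ) : ℂ) * (1 - Complex.I * r p) / p := by
    intro p hp
    have hrts : p.Prime ∧ (p : ℤ) ∣ r p ^ 2 + 1 := by
      rcases Finset.mem_union.1 hp with h | h
      · exact hR0 p h
      · exact hR p h
    have hcp : cc p ∈ Icc 1 (p - 1) := by
      rcases Finset.mem_union.1 hp with h | h
      · rw [hcc0 p h]; exact hc0m p h
      · rw [hcc1 p h]; exact hc1m p h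
    rw [Finset.mem_Icc] at hcp
    obtain ⟨π, α, h1, h2, h3, h4⟩ := bridge hrts.1 hrts.2 (c := (cc p : ℤ)) (by
      intro hd
      have h5 : p ∣ cc p := by exact_mod_cast hd
      have := Nat.le_of_dvd (by omega) h5
      have := hrts.1.pos
      omega)
    exact ⟨(π, α), h1, h2, h3, h4⟩
  choose! πα hπp hπn hπd hπc using hbr
  set al : GaussianInt → GaussianInt := fun z => (πα z.norm.toNat).2 with hal
  have hal1 : ∀ p ∈ P0 ∪ P, al (πα p).1 = (πα p).2 := by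
    intro p hp
    simp only [hal]
    rw [hπn p hp, Int.toNat_natCast]
  have hinj : Set.InjOn (fun p => (πα p).1) (P0 ∪ P : Finset ℕ) := by
    intro p hp q hq hpq
    have h1 := hπn p hp
    have h2 := hπn q hq
    simp only at hpq
    rw [hpq, h2] at h1
    exact_mod_cast h1.symm
  have hsub0 : P0 ⊆ P0 ∪ P := Finset.subset_union_left
  have hsub1 : P ⊆ P0 ∪ P := Finset.subset_union_right
  have hinj0 : Set.InjOn (fun p => (πα p).1) P0 := hinj.mono (by exact_mod_cast hsub0)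
  have hinj1 : Set.InjOn (fun p => (πα p).1) P := hinj.mono (by exact_mod_cast hsub1)
  have hth : ∀ p ∈ P0 ∪ P, (th al (πα p).1).re = fx ⟨p, cc p⟩ ∧
      -(th al (πα p).1).im = fy r ⟨p, cc p⟩ := by
    intro p hp
    have h1 := th_coord' (c := (cc p : ℤ)) (r := r p) (p := p) (th al (πα p).1) (by
      rw [R2.H116.th, hal1 p hp]; exact hπc p hp)
    simp only [fx, fy]
    push_cast at h1
    exact h1
  have hlvl : ∀ (q : ℕ) (R : Finset ℕ), R ⊆ P0 ∪ P →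
      (∀ p ∈ R, q ≤ 2 * p ∧ p ≤ q) → (q : ℝ) ≤ Λ * R.card →
      Lvl Λ q (R.image (fun p => (πα p).1)) al := by
    intro q R hRU hq hqc
    refine ⟨?_, ?_, ?_, ?_, ?_, ?_⟩
    · intro π hπ
      obtain ⟨p, hp, rfl⟩ := Finset.mem_image.1 hπ
      exact hπp p (hRU hp)
    · intro π hπ
      obtain ⟨p, hp, rfl⟩ := Finset.mem_image.1 hπ
      rw [hπn p (hRU hp)]
      exact_mod_cast (hq p hp).1
    · intro π hπ
      obtain ⟨p, hp, rfl⟩ := Finset.mem_image.1 hπ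
      rw [hπn p (hRU hp)]
      exact_mod_cast (hq p hp).2
    · intro π hπ π' hπ' h
      obtain ⟨p, hp, rfl⟩ := Finset.mem_image.1 hπ
      obtain ⟨p', hp', rfl⟩ := Finset.mem_image.1 hπ'
      rw [hπn p (hRU hp), hπn p' (hRU hp')] at h
      have : p = p' := by exact_mod_cast h
      rw [this]
    · intro π hπ
      obtain ⟨p, hp, rfl⟩ := Finset.mem_image.1 hπ
      rw [hal1 p (hRU hp)]
      exact hπd p (hRU hp)
    · rw [Finset.card_image_of_injOn (hinj.mono (by exact_mod_cast hRU))]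
      exact hqc
  refine hcoup Λ W K Q0 Q hcv (P0.image (fun p => (πα p).1)) (P.image (fun p => (πα p).1)) al
    (hlvl Q0 P0 hsub0 hP0 hP0c) (hlvl Q P hsub1 hP hPc)
    ((pow_le_pow_right₀ hΛ1 (by omega)).trans hΛQ0) hQQ hK ?_
  rw [Finset.card_image_of_injOn hinj0, Finset.card_image_of_injOn hinj1, Finset.sum_image hinj0]
  have hterm : ∀ p ∈ P0, ∀ ρ ∈ P, ‖hc W (th al (πα ρ).1 - th al (πα p).1)‖ =
      ‖hg W (fx ⟨ρ, c1 ρ⟩ - fx ⟨p, c0 p⟩) (fy r ⟨ρ, c1 ρ⟩ - fy r ⟨p, c0 p⟩)‖ := by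
    intro p hp ρ hρ
    obtain ⟨h1, h2⟩ := hth p (hsub0 hp)
    obtain ⟨h3, h4⟩ := hth ρ (hsub1 hρ)
    rw [hcc0 p hp] at h1 h2
    rw [hcc1 ρ hρ] at h3 h4
    rw [hc, Complex.sub_re, Complex.sub_im, h1, h3, ← h2, ← h4]
    congr 2
    ring
  refine hbig.trans (le_of_eq ?_)
  congr 1
  rw [Finset.sum_comm]
  refine Finset.sum_congr rfl fun p hp => ?_
  rw [Finset.sum_image hinj1]
  exact Finset.sum_congr rfl fun ρ hρ => (hterm p hp ρ hρ).symm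

end Vale.Agent.P015.H690
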