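import Vale.Agent.P015.R3.H85.Main

/-!
# P015: from the absence of admissible sequences to bounded components
-/

namespace Vale.Agent.P015.H690

open Vale.Agent.P015 Vale.Agent.P015.R3.H85

/-- If no infinite sequence of distinct Gaussian integers with steps at most `D` misses a residue
class modulo every Gaussian prime, the components of `G_D` have bounded size. -/
theorem bounded_of_noAdmissible {D : ℝ} (h : ∀ g : ℕ → GaussianInt, ¬ Admissible D g) :
    ∃ B : ℕ, ∀ z : {z : GaussianInt // Prime z},
      {w | (moatGraph D).Reachable z w}.encard ≤ (B : ℕ∞) := by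
  have h3 : ¬ ∃ g : ℕ → GaussianInt, Admissible D g := fun ⟨g, hg⟩ => h g hg
  obtain ⟨m, hm, hc⟩ := ((dichotomy D).out 2 0).mp h3
  exact bounded_components hm hc

/-- The components of `G_D` are finite. -/
theorem finite_of_noAdmissible {D : ℝ} (h : ∀ g : ℕ → GaussianInt, ¬ Admissible D g)
    (c : (moatGraph D).ConnectedComponent) : c.supp.Finite := by
  obtain ⟨B, hB⟩ := bounded_of_noAdmissible h
  induction c using SimpleGraph.ConnectedComponent.ind with
  | h z =>
    have h1 := hB z
    have h2 : ((moatGraph D).connectedComponentMk z).supp = {w | (moatGraph D).Reachable z w} := by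
      ext w
      simp only [SimpleGraph.ConnectedComponent.mem_supp_iff, SimpleGraph.ConnectedComponent.eq,
        Set.mem_ofPred_eq]
      exact ⟨fun h => h.symm, fun h => h.symm⟩
    rw [h2]
    exact Set.finite_of_encard_le_coe h1

end Vale.Agent.P015.H690
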