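import Vale.Agent.P015.R3.H85.Defs
import Vale.Agent.P015.R2.H222.Primes

/-!
# P015: admissible sequences in coordinates
-/

namespace Vale.Agent.P015.H690

open Vale.Agent.P015 Vale.Agent.P015.Cx Vale.Agent.P015.H222 Vale.Agent.P015.R3.H85

/-- An admissible sequence misses a value of the form `x + (rI p) y` modulo every prime
`p = 1 mod 4`. -/
theorem adm_lf {D : ℝ} {g : ℕ → GaussianInt} (h : Admissible D g) {p : ℕ} (hp : p.Prime)
    (hp4 : p % 4 = 1) : ∃ c : ZMod p, ∀ n, ((lf (rI p) (cd (g n)) : ℤ) : ZMod p) ≠ c := by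
  obtain ⟨π, hπ, hπn, hπd⟩ := exists_gprime hp (root_mul_root hp hp4 true)
  obtain ⟨a, ha⟩ := h.2.2 π hπ
  refine ⟨phi p (root p true) a, fun n h4 => ha n (hπd _ ?_)⟩
  have h5 : ((lf (rI p) (cd (g n)) : ℤ) : ZMod p) = phi p (root p true) (g n) := by
    rw [phi, lf, cd]
    push_cast
    rw [rI_cast hp]
  rw [phi_sub, ← h5, h4, sub_self]

/-- The coordinates of an admissible sequence are distinct. -/
theorem adm_inj {D : ℝ} {g : ℕ → GaussianInt} (h : Admissible D g) :
    Function.Injective (fun n => cd (g n)) := fun _ _ hab => h.1 (cd_injective hab)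

theorem abs_re_le_norm (z : GaussianInt) : |(z.re : ℝ)| ≤ ‖GaussianInt.toComplex z‖ := by
  have := Complex.abs_re_le_norm (GaussianInt.toComplex z)
  rwa [← GaussianInt.intCast_re] at this

theorem abs_im_le_norm (z : GaussianInt) : |(z.im : ℝ)| ≤ ‖GaussianInt.toComplex z‖ := by
  have := Complex.abs_im_le_norm (GaussianInt.toComplex z)
  rwa [← GaussianInt.intCast_im] at this

/-- The steps of the coordinates of an admissible sequence are at most `⌊D⌋`. -/
theorem adm_step {D : ℝ} {g : ℕ → GaussianInt} (h : Admissible D g) {d : ℕ} (hd : D < d + 1)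
    (n : ℕ) : |(cd (g (n + 1))).1 - (cd (g n)).1| ≤ (d : ℤ) ∧
      |(cd (g (n + 1))).2 - (cd (g n)).2| ≤ (d : ℤ) := by
  have h1 := h.2.1 n
  rw [dist_comm, dist_eq_norm, ← map_sub] at h1
  have h2 := (abs_re_le_norm (g (n + 1) - g n)).trans h1
  have h3 := (abs_im_le_norm (g (n + 1) - g n)).trans h1
  rw [Zsqrtd.re_sub] at h2
  rw [Zsqrtd.im_sub] at h3
  refine ⟨?_, ?_⟩
  · have h4 : |(((g (n + 1)).re - (g n).re : ℤ) : ℝ)| < d + 1 := h2.trans_lt hd
    have h5 : |(g (n + 1)).re - (g n).re| < (d : ℤ) + 1 := by exact_mod_cast h4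
    exact Int.lt_add_one_iff.1 h5
  · have h4 : |(((g (n + 1)).im - (g n).im : ℤ) : ℝ)| < d + 1 := h3.trans_lt hd
    have h5 : |(g (n + 1)).im - (g n).im| < (d : ℤ) + 1 := by exact_mod_cast h4
    exact Int.lt_add_one_iff.1 h5

end Vale.Agent.P015.H690
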