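import Vale.Agent.P015.H690.Fin

/-!
# P015: shell of the final theorem
-/

namespace Vale.Agent.P015.H690

open Vale.Agent.P015 Vale.Agent.P015.R3.H85

/-- The full answer to Q1 from the absence of admissible sequences. -/
theorem moat_of_noAdmissible
    (h : ∀ (D : ℝ) (g : ℕ → GaussianInt), Admissible D g → False) :
    (∀ D : ℝ, ∀ z : {z : GaussianInt // Prime z},
      {w | (moatGraph D).Reachable z w}.Finite) ∧
    (∀ D : ℝ, ¬ ∃ γ : ℕ → {z : GaussianInt // Prime z}, Function.Injective γ ∧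
      ∀ n, (moatGraph D).Adj (γ n) (γ (n + 1))) ∧
    (∀ D : ℝ, ∃ B : ℕ, ∀ z : {z : GaussianInt // Prime z},
      {w | (moatGraph D).Reachable z w}.encard ≤ (B : ℕ∞)) ∧
    ∀ D : ℝ, ∃ k : ℕ, ∀ f : ℕ → GaussianInt, (∀ i ≤ k, ∀ j ≤ k, f i = f j → i = j) →
      (∀ n < k, dist (GaussianInt.toComplex (f n)) (GaussianInt.toComplex (f (n + 1))) ≤ D) →
        ∃ π : GaussianInt, Prime π ∧ ∀ a, ∃ n ≤ k, π ∣ f n - a := by
  have hB : ∀ D : ℝ, ∃ B : ℕ, ∀ z : {z : GaussianInt // Prime z},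
      {w | (moatGraph D).Reachable z w}.encard ≤ (B : ℕ∞) := fun D =>
    bounded_of_noAdmissible fun g hg => h D g hg
  have hfin : ∀ D : ℝ, ∀ z : {z : GaussianInt // Prime z},
      {w | (moatGraph D).Reachable z w}.Finite := by
    intro D z
    obtain ⟨B, hB⟩ := hB D
    exact Set.finite_of_encard_le_coe (hB z)
  refine ⟨hfin, ?_, hB, fun D => ?_⟩
  · rintro D ⟨γ, hγ, hadj⟩
    have hr : ∀ n, (moatGraph D).Reachable (γ 0) (γ n) := by
      intro n
      induction n with
      | zero => exact SimpleGraph.Reachable.refl _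
      | succ n ih => exact ih.trans (hadj n).reachable
    have h1 : (Set.range γ).Infinite := Set.infinite_range_of_injective hγ
    exact h1 ((hfin D (γ 0)).subset (by rintro _ ⟨n, rfl⟩; exact hr n))
  · have h3 : ¬ ∃ g : ℕ → GaussianInt, Admissible D g := fun ⟨g, hg⟩ => h D g hg
    exact ((dichotomy D).out 2 1).mp h3

end Vale.Agent.P015.H690
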